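import Vale.Agent.P013.Final

/-! Jacobsthal's function: a power saving below `k ^ 2` when the modulus misses middle primes. -/

open Finset

namespace Vale.Agent.Results.P013.MissingPrimes

open Vale.Agent.P013

theorem result : ∀ δ ε : ℝ, 0 < δ → 0 < ε → ∃ η C : ℝ, 0 < η ∧ ∀ n k : ℕ, 0 < n →
    n.primeFactors.card ≤ k →
    ε ≤ ∑ p ∈ (Finset.range (k + 1)).filter
      (fun p : ℕ => p.Prime ∧ (k : ℝ) ^ δ ≤ (p : ℝ) ∧ p ∉ n.primeFactors), 1 / (p : ℝ) →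
    (jac n : ℝ) ≤ C * (k : ℝ) ^ (2 - η) := by
  intro δ ε hδ hε
  obtain ⟨η, k0, hη0, hη1, _, h⟩ := large_k δ ε hδ hε
  refine ⟨η, (2 : ℝ) ^ k0 * (k0 + 1) + 2, hη0, fun n k hn hk hmiss => ?_⟩
  have hk1 : 1 ≤ k := by
    by_contra hc
    obtain rfl : k = 0 := by omega
    rw [Finset.filter_eq_empty_iff.2 fun p hp hp' => by
      simp only [Finset.mem_range] at hp
      obtain rfl : p = 0 := by omega
      exact Nat.not_prime_zero hp'.1] at hmiss
    simp at hmiss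
    linarith
  have hx1 : 1 ≤ (k : ℝ) ^ (2 - η) :=
    Real.one_le_rpow (by exact_mod_cast hk1) (by linarith)
  have hC : 0 ≤ (2 : ℝ) ^ k0 * (k0 + 1) := by positivity
  rcases le_or_gt k0 k with hkk | hkk
  · have hX : 0 < ⌈(k : ℝ) ^ (2 - η)⌉₊ := Nat.ceil_pos.2 (by linarith)
    have hj := jac_le hn hX fun x =>
      h k n.primeFactors x hkk (fun p hp => Nat.prime_of_mem_primeFactors hp) hk hmiss
    calc (jac n : ℝ) ≤ (⌈(k : ℝ) ^ (2 - η)⌉₊ : ℝ) := by exact_mod_cast hj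
      _ ≤ (k : ℝ) ^ (2 - η) + 1 := (Nat.ceil_lt_add_one (by linarith)).le
      _ ≤ 2 * (k : ℝ) ^ (2 - η) := by linarith
      _ ≤ _ := mul_le_mul_of_nonneg_right (by linarith) (by linarith)
  · have hj := small_k k0 n hn (hk.trans hkk.le)
    calc (jac n : ℝ) ≤ ((2 ^ k0 * (k0 + 1) + 1 : ℕ) : ℝ) := by exact_mod_cast hj
      _ = ((2 : ℝ) ^ k0 * (k0 + 1) + 1) * 1 := by push_cast; ring
      _ ≤ _ := mul_le_mul (by linarith) hx1 zero_le_one (by linarith)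

end Vale.Agent.Results.P013.MissingPrimes
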